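import Mathlib

/-!
# A discrete Prekopa-Leindler inequality on the integers

`dpl_level`: if `F` on `A` and `G` on `B` are positive with the same maximum `m`, and
`min (F x) (G y) ≤ H (x + y)`, then `∑ F + ∑ G - m ≤ ∑_{A + B} H`.

`dpl`: if `F x * G y ≤ H (x + y) ^ 2` and `0 ≤ H ≤ 1` on `A + B`, then
`2 * sqrt (∑ F * ∑ G) ≤ ∑_{A + B} H + 1`.
-/

namespace Vale.Agent.Lib.P249.H44

open Finset
open scoped Pointwise

theorem dpl_level : ∀ (N : ℕ) (A B : Finset ℤ), A.card + B.card ≤ N → A.Nonempty → B.Nonempty →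
    ∀ (m : ℝ) (F G H : ℤ → ℝ),
    (∀ x ∈ A, 0 < F x ∧ F x ≤ m) → (∀ y ∈ B, 0 < G y ∧ G y ≤ m) →
    (∃ x ∈ A, F x = m) → (∃ y ∈ B, G y = m) →
    (∀ x ∈ A, ∀ y ∈ B, min (F x) (G y) ≤ H (x + y)) →
    ∑ x ∈ A, F x + ∑ y ∈ B, G y - m ≤ ∑ z ∈ A + B, H z := by
  intro N
  induction N with
  | zero =>
    intro A B hN hA hB
    exfalso
    have := hA.card_pos
    omega
  | succ N ih =>
    intro A B hN hA hB m F G H hF hG hFm hGm hH
    obtain ⟨x0, hx0, hFx0⟩ := hFm
    obtain ⟨y0, hy0, hGy0⟩ := hGm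
    have hcard := cauchy_davenport_add_of_linearOrder_isCancelAdd hA hB
    have hApos := hA.card_pos
    have hcardR : (A.card : ℝ) + B.card - 1 ≤ ((A + B).card : ℝ) := by
      have h1 : ((A.card + B.card - 1 : ℕ) : ℝ) ≤ ((A + B).card : ℝ) := by exact_mod_cast hcard
      have h2 : ((A.card + B.card - 1 : ℕ) : ℝ) = (A.card : ℝ) + B.card - 1 := by
        rw [Nat.cast_sub (by omega : 1 ≤ A.card + B.card)]
        push_cast
        ring
      linarith
    -- the least value
    set t : ℝ := min (A.inf' hA F) (B.inf' hB G) with ht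
    have htF : ∀ x ∈ A, t ≤ F x := fun x hx =>
      le_trans (min_le_left _ _) (Finset.inf'_le F hx)
    have htG : ∀ y ∈ B, t ≤ G y := fun y hy =>
      le_trans (min_le_right _ _) (Finset.inf'_le G hy)
    have htpos : 0 < t := by
      obtain ⟨x1, hx1, h1⟩ := Finset.exists_mem_eq_inf' hA F
      obtain ⟨y1, hy1, h2⟩ := Finset.exists_mem_eq_inf' hB G
      rw [ht, h1, h2]
      exact lt_min (hF x1 hx1).1 (hG y1 hy1).1
    have htm : t ≤ m := le_trans (htF x0 hx0) (hFx0.le)
    have hHt : ∀ z ∈ A + B, t ≤ H z := by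
      intro z hz
      obtain ⟨x, hx, y, hy, rfl⟩ := Finset.mem_add.1 hz
      exact le_trans (le_min (htF x hx) (htG y hy)) (hH x hx y hy)
    rcases eq_or_lt_of_le htm with hteq | htlt
    · -- all values equal m
      have hFa : ∀ x ∈ A, F x = m := fun x hx =>
        le_antisymm (hF x hx).2 (hteq ▸ htF x hx)
      have hGa : ∀ y ∈ B, G y = m := fun y hy =>
        le_antisymm (hG y hy).2 (hteq ▸ htG y hy)
      have hmpos : 0 < m := hteq ▸ htpos
      calc ∑ x ∈ A, F x + ∑ y ∈ B, G y - m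
          = (A.card : ℝ) * m + (B.card : ℝ) * m - m := by
            rw [Finset.sum_congr rfl hFa, Finset.sum_congr rfl hGa]; simp
        _ ≤ ((A + B).card : ℝ) * m := by nlinarith
        _ = ∑ z ∈ A + B, m := by simp
        _ ≤ ∑ z ∈ A + B, H z := Finset.sum_le_sum (fun z hz => hteq ▸ hHt z hz)
    · -- strip the bottom layer
      set A' := A.filter (fun x => t < F x) with hA'
      set B' := B.filter (fun y => t < G y) with hB'
      have hx0' : x0 ∈ A' := Finset.mem_filter.2 ⟨hx0, hFx0 ▸ htlt⟩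
      have hy0' : y0 ∈ B' := Finset.mem_filter.2 ⟨hy0, hGy0 ▸ htlt⟩
      have hA'sub : A' ⊆ A := Finset.filter_subset _ _
      have hB'sub : B' ⊆ B := Finset.filter_subset _ _
      have hlt : A'.card + B'.card < A.card + B.card := by
        obtain ⟨x1, hx1, h1⟩ := Finset.exists_mem_eq_inf' hA F
        obtain ⟨y1, hy1, h2⟩ := Finset.exists_mem_eq_inf' hB G
        rcases min_cases (A.inf' hA F) (B.inf' hB G) with ⟨hmin, _⟩ | ⟨hmin, _⟩
        · have hx1n : x1 ∉ A' := by
            intro hmem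
            have := (Finset.mem_filter.1 hmem).2
            rw [ht, hmin, h1] at this
            exact lt_irrefl _ this
          have : A'.card < A.card :=
            Finset.card_lt_card ⟨hA'sub, fun hsub => hx1n (hsub hx1)⟩
          have := Finset.card_le_card hB'sub
          omega
        · have hy1n : y1 ∉ B' := by
            intro hmem
            have := (Finset.mem_filter.1 hmem).2
            rw [ht, hmin, h2] at this
            exact lt_irrefl _ this
          have : B'.card < B.card :=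
            Finset.card_lt_card ⟨hB'sub, fun hsub => hy1n (hsub hy1)⟩
          have := Finset.card_le_card hA'sub
          omega
      have key := ih A' B' (by omega) ⟨x0, hx0'⟩ ⟨y0, hy0'⟩ (m - t)
        (fun x => F x - t) (fun y => G y - t) (fun z => H z - t)
        (fun x hx => by
          have h1 := (Finset.mem_filter.1 hx)
          have h2 := (hF x h1.1).2
          constructor <;> linarith [h1.2])
        (fun y hy => by
          have h1 := (Finset.mem_filter.1 hy)
          have h2 := (hG y h1.1).2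
          constructor <;> linarith [h1.2])
        ⟨x0, hx0', by rw [hFx0]⟩ ⟨y0, hy0', by rw [hGy0]⟩
        (fun x hx y hy => by
          have h1 := hH x (hA'sub hx) y (hB'sub hy)
          rw [min_sub_sub_right]
          linarith)
      -- rewrite the sums
      have hsumA : ∑ x ∈ A', (F x - t) = ∑ x ∈ A, F x - A.card * t := by
        rw [hA', Finset.sum_filter]
        have : ∀ x ∈ A, (if t < F x then F x - t else 0) = F x - t := by
          intro x hx
          split_ifs with hlt'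
          · rfl
          · have := htF x hx
            linarith [not_lt.1 hlt']
        rw [Finset.sum_congr rfl this, Finset.sum_sub_distrib]
        simp
      have hsumB : ∑ y ∈ B', (G y - t) = ∑ y ∈ B, G y - B.card * t := by
        rw [hB', Finset.sum_filter]
        have : ∀ y ∈ B, (if t < G y then G y - t else 0) = G y - t := by
          intro y hy
          split_ifs with hlt'
          · rfl
          · have := htG y hy
            linarith [not_lt.1 hlt']
        rw [Finset.sum_congr rfl this, Finset.sum_sub_distrib]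
        simp
      have hsumH : ∑ z ∈ A' + B', (H z - t) ≤ ∑ z ∈ A + B, H z - (A + B).card * t := by
        have h1 : ∑ z ∈ A' + B', (H z - t) ≤ ∑ z ∈ A + B, (H z - t) :=
          Finset.sum_le_sum_of_subset_of_nonneg (Finset.add_subset_add hA'sub hB'sub)
            (fun z hz _ => by linarith [hHt z hz])
        have h2 : ∑ z ∈ A + B, (H z - t) = ∑ z ∈ A + B, H z - (A + B).card * t := by
          rw [Finset.sum_sub_distrib]; simp
        linarith
      rw [hsumA, hsumB] at key
      nlinarith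

/-- Discrete Prekopa-Leindler on the integers, geometric-mean form. -/
theorem dpl (A B : Finset ℤ) (hA : A.Nonempty) (hB : B.Nonempty) (F G H : ℤ → ℝ)
    (hF : ∀ x ∈ A, 0 < F x) (hG : ∀ y ∈ B, 0 < G y)
    (hH0 : ∀ z ∈ A + B, 0 ≤ H z) (hH1 : ∀ z ∈ A + B, H z ≤ 1)
    (h : ∀ x ∈ A, ∀ y ∈ B, F x * G y ≤ H (x + y) ^ 2) :
    2 * Real.sqrt ((∑ x ∈ A, F x) * (∑ y ∈ B, G y)) ≤ ∑ z ∈ A + B, H z + 1 := by
  obtain ⟨x0, hx0, hFx0⟩ := Finset.exists_mem_eq_sup' hA F
  obtain ⟨y0, hy0, hGy0⟩ := Finset.exists_mem_eq_sup' hB G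
  have hFle : ∀ x ∈ A, F x ≤ F x0 := fun x hx => hFx0 ▸ Finset.le_sup' F hx
  have hGle : ∀ y ∈ B, G y ≤ G y0 := fun y hy => hGy0 ▸ Finset.le_sup' G hy
  set mF := F x0 with hmF
  set mG := G y0 with hmG
  have hmFpos : 0 < mF := hF x0 hx0
  have hmGpos : 0 < mG := hG y0 hy0
  set r := Real.sqrt (mF * mG) with hr
  have hrpos : 0 < r := Real.sqrt_pos.2 (mul_pos hmFpos hmGpos)
  have hrsq : r ^ 2 = mF * mG := Real.sq_sqrt (mul_pos hmFpos hmGpos).le
  have hmem0 : x0 + y0 ∈ A + B := Finset.add_mem_add hx0 hy0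
  have hr1 : r ≤ 1 := by
    have h1 := h x0 hx0 y0 hy0
    have h2 := hH1 _ hmem0
    have h3 := hH0 _ hmem0
    have : r ^ 2 ≤ 1 := by rw [hrsq]; nlinarith
    nlinarith
  have key := dpl_level (A.card + B.card) A B le_rfl hA hB 1
    (fun x => F x / mF) (fun y => G y / mG) (fun z => H z / r)
    (fun x hx => ⟨div_pos (hF x hx) hmFpos, (div_le_one hmFpos).2 (hFle x hx)⟩)
    (fun y hy => ⟨div_pos (hG y hy) hmGpos, (div_le_one hmGpos).2 (hGle y hy)⟩)
    ⟨x0, hx0, div_self hmFpos.ne'⟩ ⟨y0, hy0, div_self hmGpos.ne'⟩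
    (fun x hx y hy => by
      have hxy := h x hx y hy
      have hHnn := hH0 _ (Finset.add_mem_add hx hy)
      have ha : 0 < F x / mF := div_pos (hF x hx) hmFpos
      have hb : 0 < G y / mG := div_pos (hG y hy) hmGpos
      have hmin0 : 0 < min (F x / mF) (G y / mG) := lt_min ha hb
      -- min ^ 2 ≤ a * b ≤ (H / r) ^ 2
      have h1 : (min (F x / mF) (G y / mG)) ^ 2 ≤ (F x / mF) * (G y / mG) := by
        rw [sq]
        exact mul_le_mul (min_le_left _ _) (min_le_right _ _) hmin0.le ha.le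
      have h2 : (F x / mF) * (G y / mG) ≤ (H (x + y) / r) ^ 2 := by
        rw [div_pow, hrsq, div_mul_div_comm]
        exact div_le_div_of_nonneg_right hxy (mul_pos hmFpos hmGpos).le
      have h3 : 0 ≤ H (x + y) / r := div_nonneg hHnn hrpos.le
      exact le_of_sq_le_sq (le_trans h1 h2) h3 |>.trans_eq rfl |> fun hh => by
        simpa [abs_of_pos hmin0] using hh)
  -- unpack
  have hsF : ∑ x ∈ A, F x / mF = (∑ x ∈ A, F x) / mF := by rw [Finset.sum_div]
  have hsG : ∑ y ∈ B, G y / mG = (∑ y ∈ B, G y) / mG := by rw [Finset.sum_div]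
  have hsH : ∑ z ∈ A + B, H z / r = (∑ z ∈ A + B, H z) / r := by rw [Finset.sum_div]
  rw [hsF, hsG, hsH] at key
  set SF := ∑ x ∈ A, F x with hSF
  set SG := ∑ y ∈ B, G y with hSG
  set SH := ∑ z ∈ A + B, H z with hSH
  have hSFpos : 0 < SF := Finset.sum_pos hF hA
  have hSGpos : 0 < SG := Finset.sum_pos hG hB
  set S := Real.sqrt (SF * SG) with hS
  have hSnn : 0 ≤ S := Real.sqrt_nonneg _
  have hSsq : S ^ 2 = SF * SG := Real.sq_sqrt (mul_pos hSFpos hSGpos).le
  -- AM-GM
  have ha : 0 < SF / mF := div_pos hSFpos hmFpos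
  have hb : 0 < SG / mG := div_pos hSGpos hmGpos
  have hprod : (S / r) ^ 2 = (SF / mF) * (SG / mG) := by
    rw [div_pow, hSsq, hrsq, div_mul_div_comm]
  have hamgm : 2 * (S / r) ≤ SF / mF + SG / mG := by
    have hu : 0 ≤ S / r := div_nonneg hSnn hrpos.le
    nlinarith [sq_nonneg (SF / mF - SG / mG), sq_nonneg (SF / mF + SG / mG - 2 * (S / r))]
  have h5 : 2 * (S / r) - 1 ≤ SH / r := by linarith
  have h6 : 2 * S - r ≤ SH := by
    have := mul_le_mul_of_nonneg_right h5 hrpos.le
    have e1 : (2 * (S / r) - 1) * r = 2 * S - r := by field_simp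
    have e2 : SH / r * r = SH := by field_simp
    rw [e1, e2] at this
    exact this
  linarith

/-- The same with `F`, `G` only nonnegative. -/
theorem dpl_nonneg (A B : Finset ℤ) (F G H : ℤ → ℝ)
    (hF : ∀ x ∈ A, 0 ≤ F x) (hG : ∀ y ∈ B, 0 ≤ G y)
    (hH0 : ∀ z ∈ A + B, 0 ≤ H z) (hH1 : ∀ z ∈ A + B, H z ≤ 1)
    (h : ∀ x ∈ A, ∀ y ∈ B, F x * G y ≤ H (x + y) ^ 2) :
    2 * Real.sqrt ((∑ x ∈ A, F x) * (∑ y ∈ B, G y)) ≤ ∑ z ∈ A + B, H z + 1 := by
  set A' := A.filter (fun x => 0 < F x) with hA'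
  set B' := B.filter (fun y => 0 < G y) with hB'
  have hsA : ∑ x ∈ A, F x = ∑ x ∈ A', F x := by
    rw [hA', Finset.sum_filter]
    refine Finset.sum_congr rfl (fun x hx => ?_)
    split_ifs with hpos
    · rfl
    · exact le_antisymm (not_lt.1 hpos) (hF x hx)
  have hsB : ∑ y ∈ B, G y = ∑ y ∈ B', G y := by
    rw [hB', Finset.sum_filter]
    refine Finset.sum_congr rfl (fun y hy => ?_)
    split_ifs with hpos
    · rfl
    · exact le_antisymm (not_lt.1 hpos) (hG y hy)
  have hHnn : 0 ≤ ∑ z ∈ A + B, H z := Finset.sum_nonneg hH0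
  by_cases hne : A'.Nonempty ∧ B'.Nonempty
  · obtain ⟨hA'ne, hB'ne⟩ := hne
    have hsub : A' + B' ⊆ A + B :=
      Finset.add_subset_add (Finset.filter_subset _ _) (Finset.filter_subset _ _)
    have key := dpl A' B' hA'ne hB'ne F G H (fun x hx => (Finset.mem_filter.1 hx).2)
      (fun y hy => (Finset.mem_filter.1 hy).2)
      (fun z hz => hH0 z (hsub hz)) (fun z hz => hH1 z (hsub hz))
      (fun x hx y hy => h x (Finset.mem_filter.1 hx).1 y (Finset.mem_filter.1 hy).1)
    have hle : ∑ z ∈ A' + B', H z ≤ ∑ z ∈ A + B, H z :=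
      Finset.sum_le_sum_of_subset_of_nonneg hsub (fun z hz _ => hH0 z hz)
    rw [hsA, hsB]
    linarith
  · have hz : (∑ x ∈ A, F x) * (∑ y ∈ B, G y) = 0 := by
      rw [hsA, hsB]
      rcases not_and_or.1 hne with h1 | h1
      · rw [Finset.not_nonempty_iff_eq_empty.1 h1]; simp
      · rw [Finset.not_nonempty_iff_eq_empty.1 h1]; simp
    rw [hz, Real.sqrt_zero]
    linarith

end Vale.Agent.Lib.P249.H44
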