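import Mathlib
import Vale.Agent.Lib.P249.helper62.GridDefs
import Vale.Agent.Lib.P249.helper44.DPL

/-!
# The one-coordinate discrete Gaussian inequality (L4 of the grid lower bound for P249)

`one_coord`: for nonnegative `a`, `b` on the grid `Fin (2 * M + 1)` such that `b s * a t` is at
most `exp ((gv s - gv t) ^ 2 / (2 M ^ 2))`, the product of the two weighted sums of `b` and `a`
with weights `gphi` is at most the square of `gZ M + 1`.  `grid_one` is the homogeneous form with a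
factor `N`.
-/

namespace Vale.Agent.Lib.P249.H44

open Finset
open scoped Pointwise
open Vale.Agent.Lib.P249.H62

theorem sum_range_even_odd (f : ℕ → ℝ) (N : ℕ) :
    ∑ n ∈ Finset.range (2 * N + 1), f n
      = ∑ t ∈ Finset.range (N + 1), f (2 * t) + ∑ t ∈ Finset.range N, f (2 * t + 1) := by
  induction N with
  | zero => simp
  | succ N ih =>
    rw [show 2 * (N + 1) + 1 = (2 * N + 1) + 1 + 1 by ring, Finset.sum_range_succ,
      Finset.sum_range_succ, ih, Finset.sum_range_succ (fun t => f (2 * t)) (N + 1),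
      Finset.sum_range_succ (fun t => f (2 * t + 1)) N]
    have e1 : 2 * N + 1 + 1 = 2 * (N + 1) := by ring
    rw [e1]
    ring

/-- the Gaussian weight as a function of a natural index -/
noncomputable def pw (M n : ℕ) : ℝ := Real.exp (-((n : ℝ) - M) ^ 2 / (M : ℝ) ^ 2)

/-- the weight on the sumset -/
noncomputable def hw (M n : ℕ) : ℝ := Real.exp (-((n : ℝ) - 2 * M) ^ 2 / (4 * (M : ℝ) ^ 2))

theorem hw_even (M : ℕ) (hM : 1 ≤ M) (t : ℕ) : hw M (2 * t) = pw M t := by
  unfold hw pw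
  congr 1
  have hMpos : (0 : ℝ) < M := by exact_mod_cast hM
  push_cast
  field_simp
  ring

theorem hw_odd_hi (M : ℕ) (hM : 1 ≤ M) (t : ℕ) (ht : M ≤ t) : hw M (2 * t + 1) ≤ pw M t := by
  unfold hw pw
  apply Real.exp_le_exp.2
  have hMpos : (0 : ℝ) < M := by exact_mod_cast hM
  have htM : (M : ℝ) ≤ t := by exact_mod_cast ht
  rw [div_le_div_iff₀ (by positivity) (by positivity)]
  push_cast
  nlinarith [mul_nonneg (sq_nonneg (M : ℝ)) (by linarith : (0 : ℝ) ≤ 4 * ((t : ℝ) - M) + 1)]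

theorem hw_odd_lo (M : ℕ) (hM : 1 ≤ M) (t : ℕ) (ht : t + 1 ≤ M) :
    hw M (2 * t + 1) ≤ pw M (t + 1) := by
  unfold hw pw
  apply Real.exp_le_exp.2
  have hMpos : (0 : ℝ) < M := by exact_mod_cast hM
  have htM : (t : ℝ) + 1 ≤ M := by exact_mod_cast ht
  rw [div_le_div_iff₀ (by positivity) (by positivity)]
  push_cast
  nlinarith [mul_nonneg (sq_nonneg (M : ℝ)) (by linarith : (0 : ℝ) ≤ 4 * ((M : ℝ) - t - 1) + 1)]

theorem hw_sum_le (M : ℕ) (hM : 1 ≤ M) :
    ∑ n ∈ Finset.range (4 * M + 1), hw M n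
      ≤ 2 * (∑ t ∈ Finset.range (2 * M + 1), pw M t) + 1 := by
  have h1 := sum_range_even_odd (hw M) (2 * M)
  rw [show 2 * (2 * M) + 1 = 4 * M + 1 by ring] at h1
  rw [h1]
  have heven : ∑ t ∈ Finset.range (2 * M + 1), hw M (2 * t)
      = ∑ t ∈ Finset.range (2 * M + 1), pw M t :=
    Finset.sum_congr rfl (fun t _ => hw_even M hM t)
  have hodd : ∑ t ∈ Finset.range (2 * M), hw M (2 * t + 1)
      ≤ ∑ t ∈ Finset.range (2 * M + 1), pw M t + 1 := by
    rw [show 2 * M = M + M by ring, Finset.sum_range_add]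
    have hlo : ∑ t ∈ Finset.range M, hw M (2 * t + 1) ≤ ∑ t ∈ Finset.range M, pw M (t + 1) :=
      Finset.sum_le_sum (fun t ht => hw_odd_lo M hM t (by
        have := Finset.mem_range.1 ht; omega))
    have hhi : ∑ t ∈ Finset.range M, hw M (2 * (M + t) + 1)
        ≤ ∑ t ∈ Finset.range M, pw M (M + t) :=
      Finset.sum_le_sum (fun t _ => hw_odd_hi M hM (M + t) (by omega))
    have e1 := Finset.sum_range_succ' (pw M) M
    have e2 := Finset.sum_range_succ (pw M) M
    have e3 : ∑ t ∈ Finset.range (M + M + 1), pw M t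
        = ∑ t ∈ Finset.range M, pw M t + ∑ t ∈ Finset.range (M + 1), pw M (M + t) := by
      rw [show M + M + 1 = M + (M + 1) by ring, Finset.sum_range_add]
    have e4 := Finset.sum_range_succ (fun t => pw M (M + t)) M
    have hpM : pw M M = 1 := by unfold pw; simp
    have hp0 : 0 < pw M 0 := Real.exp_pos _
    have hp2M : 0 < pw M (M + M) := Real.exp_pos _
    linarith
  linarith

theorem gphi_eq_pw (M : ℕ) (t : Fin (2 * M + 1)) : gphi M t = pw M t := rfl

theorem gZ_eq (M : ℕ) : gZ M = ∑ t ∈ Finset.range (2 * M + 1), pw M t := by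
  unfold gZ
  rw [Finset.sum_range]
  rfl

/-- (L4): one coordinate. -/
theorem one_coord (M : ℕ) (hM : 1 ≤ M) (a b : Fin (2 * M + 1) → ℝ)
    (ha : ∀ t, 0 ≤ a t) (hb : ∀ t, 0 ≤ b t)
    (hab : ∀ s t, b s * a t ≤ Real.exp ((gv M s - gv M t) ^ 2 / (2 * (M : ℝ) ^ 2))) :
    (∑ s, gphi M s * b s) * (∑ t, gphi M t * a t) ≤ (gZ M + 1) ^ 2 := by
  have hMpos : (0 : ℝ) < M := by exact_mod_cast hM
  -- extensions to natural indices
  set b' : ℕ → ℝ := fun n => if h : n < 2 * M + 1 then b ⟨n, h⟩ else 1 with hb'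
  set a' : ℕ → ℝ := fun n => if h : n < 2 * M + 1 then a ⟨n, h⟩ else 1 with ha'
  have hb't : ∀ t : Fin (2 * M + 1), b' t = b t := by
    intro t
    show (if h : (t : ℕ) < 2 * M + 1 then b ⟨t, h⟩ else 1) = b t
    rw [dif_pos t.isLt]
  have ha't : ∀ t : Fin (2 * M + 1), a' t = a t := by
    intro t
    show (if h : (t : ℕ) < 2 * M + 1 then a ⟨t, h⟩ else 1) = a t
    rw [dif_pos t.isLt]
  have hb'pos : ∀ n, 0 ≤ b' n := by
    intro n; simp only [hb']; split_ifs
    · exact hb _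
    · exact zero_le_one
  have ha'pos : ∀ n, 0 ≤ a' n := by
    intro n; simp only [ha']; split_ifs
    · exact ha _
    · exact zero_le_one
  have hpwpos : ∀ n, 0 < pw M n := fun n => Real.exp_pos _
  have hSb : ∑ s, gphi M s * b s = ∑ n ∈ Finset.range (2 * M + 1), pw M n * b' n := by
    rw [Finset.sum_range]
    exact Finset.sum_congr rfl (fun t _ => by rw [gphi_eq_pw, hb't])
  have hSa : ∑ s, gphi M s * a s = ∑ n ∈ Finset.range (2 * M + 1), pw M n * a' n := by
    rw [Finset.sum_range]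
    exact Finset.sum_congr rfl (fun t _ => by rw [gphi_eq_pw, ha't])
  -- integer versions
  have hinj : Function.Injective (fun n : ℕ => (n : ℤ)) := Nat.cast_injective
  set A : Finset ℤ := (Finset.range (2 * M + 1)).image (fun n : ℕ => (n : ℤ)) with hA
  set F : ℤ → ℝ := fun z => pw M z.toNat * b' z.toNat with hF
  set G : ℤ → ℝ := fun z => pw M z.toNat * a' z.toNat with hG
  set H : ℤ → ℝ := fun z => hw M z.toNat with hH
  have hSF : ∑ x ∈ A, F x = ∑ n ∈ Finset.range (2 * M + 1), pw M n * b' n := by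
    rw [hA, Finset.sum_image (fun x _ y _ h => hinj h)]
    exact Finset.sum_congr rfl (fun n _ => by simp [hF])
  have hSG : ∑ x ∈ A, G x = ∑ n ∈ Finset.range (2 * M + 1), pw M n * a' n := by
    rw [hA, Finset.sum_image (fun x _ y _ h => hinj h)]
    exact Finset.sum_congr rfl (fun n _ => by simp [hG])
  have hH1 : ∀ z, H z ≤ 1 := by
    intro z
    simp only [hH, hw]
    apply Real.exp_le_one_iff.2
    exact div_nonpos_of_nonpos_of_nonneg (neg_nonpos.2 (sq_nonneg _)) (by positivity)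
  have hH0 : ∀ z, 0 ≤ H z := fun z => (Real.exp_pos _).le
  have hprod : ∀ x ∈ A, ∀ y ∈ A, F x * G y ≤ H (x + y) ^ 2 := by
    intro x hx y hy
    obtain ⟨n, hn, rfl⟩ := Finset.mem_image.1 hx
    obtain ⟨m, hm, rfl⟩ := Finset.mem_image.1 hy
    have hn' := Finset.mem_range.1 hn
    have hm' := Finset.mem_range.1 hm
    have e1 : ((n : ℤ) + (m : ℤ)).toNat = n + m := by
      rw [← Nat.cast_add, Int.toNat_natCast]
    simp only [hF, hG, hH, Int.toNat_natCast, e1]
    have hbn : b' n = b ⟨n, hn'⟩ := by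
      show (if h : n < 2 * M + 1 then b ⟨n, h⟩ else 1) = b ⟨n, hn'⟩
      rw [dif_pos hn']
    have ham : a' m = a ⟨m, hm'⟩ := by
      show (if h : m < 2 * M + 1 then a ⟨m, h⟩ else 1) = a ⟨m, hm'⟩
      rw [dif_pos hm']
    rw [hbn, ham]
    have h1 := hab ⟨n, hn'⟩ ⟨m, hm'⟩
    calc pw M n * b ⟨n, hn'⟩ * (pw M m * a ⟨m, hm'⟩)
        = (pw M n * pw M m) * (b ⟨n, hn'⟩ * a ⟨m, hm'⟩) := by ring
      _ ≤ (pw M n * pw M m) * Real.exp ((gv M ⟨n, hn'⟩ - gv M ⟨m, hm'⟩) ^ 2 / (2 * (M : ℝ) ^ 2)) :=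
          mul_le_mul_of_nonneg_left h1 (mul_pos (hpwpos n) (hpwpos m)).le
      _ = hw M (n + m) ^ 2 := by
          unfold pw hw gv
          rw [← Real.exp_add, ← Real.exp_add, ← Real.exp_nat_mul]
          congr 1
          push_cast
          field_simp
          ring
  have key := dpl_nonneg A A F G H (fun x _ => mul_nonneg (hpwpos _).le (hb'pos _))
    (fun y _ => mul_nonneg (hpwpos _).le (ha'pos _)) (fun z _ => hH0 z) (fun z _ => hH1 z) hprod
  -- the sum of H over the sumset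
  have hsub : A + A ⊆ (Finset.range (4 * M + 1)).image (fun n : ℕ => (n : ℤ)) := by
    intro z hz
    obtain ⟨x, hx, y, hy, rfl⟩ := Finset.mem_add.1 hz
    obtain ⟨n, hn, rfl⟩ := Finset.mem_image.1 hx
    obtain ⟨m, hm, rfl⟩ := Finset.mem_image.1 hy
    have hn' := Finset.mem_range.1 hn
    have hm' := Finset.mem_range.1 hm
    exact Finset.mem_image.2 ⟨n + m, Finset.mem_range.2 (by omega), by push_cast; rfl⟩
  have hHsum : ∑ z ∈ A + A, H z ≤ ∑ n ∈ Finset.range (4 * M + 1), hw M n := by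
    calc ∑ z ∈ A + A, H z
        ≤ ∑ z ∈ (Finset.range (4 * M + 1)).image (fun n : ℕ => (n : ℤ)), H z :=
          Finset.sum_le_sum_of_subset_of_nonneg hsub (fun z _ _ => hH0 z)
      _ = ∑ n ∈ Finset.range (4 * M + 1), hw M n := by
          rw [Finset.sum_image (fun x _ y _ h => hinj h)]
          exact Finset.sum_congr rfl (fun n _ => by simp [hH])
  have hZ := hw_sum_le M hM
  rw [← gZ_eq] at hZ
  rw [hSF, hSG] at key
  rw [hSb, hSa]
  have hZpos : 0 ≤ gZ M + 1 := by
    have : 0 ≤ gZ M := by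
      rw [gZ_eq]; exact Finset.sum_nonneg (fun n _ => (hpwpos n).le)
    linarith
  have hsqrt : Real.sqrt ((∑ n ∈ Finset.range (2 * M + 1), pw M n * b' n) *
      (∑ n ∈ Finset.range (2 * M + 1), pw M n * a' n)) ≤ gZ M + 1 := by linarith
  exact (Real.sqrt_le_left hZpos).1 hsqrt

/-- (L4), homogeneous form: the exact statement of pool job P249-GRID-C. -/
theorem grid_one (M : ℕ) (hM : 1 ≤ M) (a b : Fin (2 * M + 1) → ℝ) (N : ℝ)
    (ha : ∀ t, 0 ≤ a t) (hb : ∀ t, 0 ≤ b t) (hN : 0 ≤ N)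
    (h : ∀ t t', b t * a t' ≤ N * Real.exp ((gv M t - gv M t') ^ 2 / (2 * (M : ℝ) ^ 2))) :
    (∑ t, gphi M t * b t) * (∑ t, gphi M t * a t) ≤ N * (gZ M + 1) ^ 2 := by
  rcases eq_or_lt_of_le hN with hN0 | hNpos
  · have hz : ∀ t t', b t * a t' = 0 := fun t t' =>
      le_antisymm (by have := h t t'; rw [← hN0, zero_mul] at this; exact this)
        (mul_nonneg (hb t) (ha t'))
    rw [Finset.sum_mul_sum, ← hN0, zero_mul]
    apply le_of_eq
    apply Finset.sum_eq_zero
    intro t _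
    apply Finset.sum_eq_zero
    intro t' _
    calc gphi M t * b t * (gphi M t' * a t') = gphi M t * gphi M t' * (b t * a t') := by ring
      _ = 0 := by rw [hz t t', mul_zero]
  · have key := one_coord M hM a (fun t => b t / N) ha (fun t => div_nonneg (hb t) hNpos.le)
      (fun s t => by
        have := h s t
        rw [div_mul_eq_mul_div, div_le_iff₀ hNpos]
        linarith)
    have e : ∑ s, gphi M s * (b s / N) = (∑ s, gphi M s * b s) / N := by
      rw [Finset.sum_div]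
      exact Finset.sum_congr rfl (fun s _ => by ring)
    rw [e, div_mul_eq_mul_div, div_le_iff₀ hNpos] at key
    linarith

end Vale.Agent.Lib.P249.H44
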